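import Vale.Agent.P011IZ.Mid
import Vale.Agent.P011IP.Adm
import Vale.Agent.P011IS.Rk1
import Vale.Agent.P011U.End

/-!
The Margulis-Platonov conjecture for absolutely almost simple simply connected groups.
-/

namespace Vale.Agent.P011IZ

theorem qi : P011I.QI := mid P011U.q1 P011IP.adm P011IS.rk1

end Vale.Agent.P011IZ
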