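import Vale.Agent.P011IZ.Top
import Vale.Agent.P011IE.Row
import Vale.Agent.P011IH.Main
import Vale.Agent.P011IP.Pi
import Vale.Agent.P011IP.Spec
import Vale.Agent.P011IL.Loc
import Vale.Agent.P011IN.Main
import Vale.Agent.P011IT.Main
import Vale.Agent.P011IM.Main
import Vale.Agent.P011IR.Main
import Vale.Agent.P011IFA.Main
import Vale.Agent.P011IS.Fb

/-!
Recognition of the absolutely almost simple simply connected groups: the proved rows.
-/

namespace Vale.Agent.P011IZ

open Vale.Agent.P011I

theorem mid (q : P011U.Q1) (adm : ADM) (rk : RK1) : QI :=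
  top q P011IE.exc_row P011IH.hom_row (P011IP.pi adm) P011IL.loc P011IN.nrm P011IN.ext P011IT.upf
    P011IM.maxs P011IR.yne rk (P011IP.spec adm) (P011IFA.fa P011IT.img adm) P011IS.fb P011IS.mpt

end Vale.Agent.P011IZ
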