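import Vale.Agent.P011I.IF
import Vale.Agent.P011IT.Pts

/-!
Recognition of the absolutely almost simple simply connected groups: the assembly.
-/

set_option autoImplicit false
set_option linter.all false

namespace Vale.Agent.P011IZ

open Matrix Vale.Agent.P011L Vale.Agent.P011LZ Vale.Agent.P183CH Vale.Agent.P183CH.Chev
  Vale.Agent.P011U Vale.Agent.P092AG Vale.Agent.P092TO Vale.Agent.P092A2 Vale.Agent.P011I

/-- a pinned group has the certificate -/
theorem c0_of (h1 : EXC) (h2 : HOM) (h3 : PI) {F : Type} [Field F] [Infinite F] {n : ℕ} {R : RS}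
    {S : Pn F n R} (hS : S.Ok) : ∃ D : Chev, SC D ∧ C0 (van (S.Gp : Set (GL (Fin n) F))) D := by
  obtain ⟨D, ε, hD, hA⟩ := h1 R hS.root
  obtain ⟨ψ, hψ⟩ := h2 F n R S hS D ε hD hA
  choose w hw using h3 F n R S hS D ε hD hA ψ hψ
  have a1 : ∀ i t, (ψ ((GG D F).x (D.α i) t)).1 = S.x (ε i) t := fun i t =>
    (hψ _ i t).1 (congrArg Units.val (GG_e i t))
  have a2 : ∀ i t, (ψ ((GG D F).x (-D.α i) t)).1 = S.y (ε i) t := fun i t =>
    (hψ _ i t).2 (congrArg Units.val (GG_f i t))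
  choose P hP using P011UH.pol_all hD ((Units.coeHom _).comp ψ) fun i a b =>
    ⟨S.X (ε i) a b, S.Y (ε i) a b, fun t => ⟨congrFun (congrFun (a1 i t) a) b,
      congrFun (congrFun (a2 i t) a) b⟩⟩
  refine ⟨D, hD, ψ, of P, of w, fun g => Matrix.ext fun a b => (hP a b g).trans ?_,
    fun g => Matrix.ext fun p q => Eq.trans ?_ (hw p q g), ?_⟩
  · rfl
  · rfl
  refine congrArg (fun H : Subgroup (GL (Fin n) F) => van (H : Set (GL (Fin n) F)))
    (le_antisymm ?_ ((Subgroup.closure_le _).2 ?_))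
  · rintro _ ⟨⟨g, hg⟩, rfl⟩
    induction hg using Subgroup.closure_induction with
    | mem g h =>
      obtain ⟨i, t, h⟩ := h
      exact Subgroup.subset_closure ⟨ε i, t, h.imp (hψ _ i t).1 (hψ _ i t).2⟩
    | one => exact (map_one ψ).symm ▸ S.Gp.one_mem
    | mul x y hx hy a b => exact (map_mul ψ ⟨x, hx⟩ ⟨y, hy⟩).symm ▸ S.Gp.mul_mem a b
    | inv x hx a => exact (map_inv ψ ⟨x, hx⟩).symm ▸ S.Gp.inv_mem a
  · rintro g ⟨j, t, h⟩
    obtain ⟨i, rfl⟩ := ε.surjective j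
    rcases h with h | h
    · exact ⟨_, Units.ext ((a1 i t).trans h.symm)⟩
    · exact ⟨_, Units.ext ((a2 i t).trans h.symm)⟩

/-- the certificate over a field which is separable over the global field -/
theorem ex_c0 (h1 : EXC) (h2 : HOM) (h3 : PI) (h4 : LOC) (h5 : NRM) (h6 : EXT) (h7 : UPF)
    (h8 : MAXS) (h9 : YNE) (h0 : RK1) {k Ω : Type} [Field k] [Field Ω] [Algebra k Ω]
    [IsAlgClosed Ω] [Algebra.IsAlgebraic k Ω] (hk : Glob k) {n : ℕ} {G : Subgroup (GL (Fin n) Ω)}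
    (h : AbsSimple k G) : ∃ (L : Type) (_ : Field L) (_ : Algebra k L) (D : Chev),
      P011IS.Sepx k L ∧ SC D ∧
        C0 ((P092GV.vanish k G).map (MvPolynomial.map (algebraMap k L))) D := by
  classical
  obtain ⟨F, _, _, _, _, hs⟩ := h4 k hk
  obtain ⟨Ω', _, _, _, _, _⟩ := h5 F
  let _ : Algebra k Ω' := ((algebraMap F Ω').comp (algebraMap k F)).toAlgebra
  have : IsScalarTower k F Ω' := .of_algebraMap_eq fun _ => rfl
  let f : Ω →ₐ[k] Ω' := IsAlgClosed.lift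
  let _ : Algebra Ω Ω' := (f : Ω →+* Ω').toAlgebra
  have : IsScalarTower k Ω Ω' := .of_algebraMap_eq fun x => (f.commutes x).symm
  have h' : AbsSimple k (P011IT.bc Ω' h) := P011IT.abs_bc h
  obtain ⟨c, c1, c2⟩ := h8 F Ω' n _ (h7.1 k F Ω' n _ h').1
  obtain ⟨L, _, _, _, _, _, _, _, -, l1, l2⟩ := h6 F Ω'
    (Finset.univ.image fun e : Fin n × Fin n => c.1 e.1 e.2)
  have := l2 fun x hx => by
    obtain ⟨e, -, rfl⟩ := Finset.mem_image.1 hx
    exact c1 _ _
  choose z hz using fun a b => l1 (c.1 a b) (Finset.mem_image.2 ⟨(a, b), Finset.mem_univ _, rfl⟩)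
  have e1 : (of z).map (algebraMap L Ω') = c.1 := Matrix.ext hz
  have e2 : (of z).det ≠ 0 := fun e => c.det_ne_zero (by
    rw [← e1, ← RingHom.mapMatrix_apply, ← RingHom.map_det, e, map_zero])
  obtain ⟨d, rfl⟩ : ∃ d, io L Ω' n d = c := ⟨GeneralLinearGroup.mkOfDetNeZero _ e2, Units.ext e1⟩
  let _ : Algebra k L := ((algebraMap F L).comp (algebraMap k F)).toAlgebra
  have : IsScalarTower k F L := .of_algebraMap_eq fun _ => rfl
  have : IsScalarTower k L Ω' := .of_algebraMap_eq fun x =>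
    IsScalarTower.algebraMap_apply F L Ω' _
  obtain ⟨u1, u2, u3⟩ := h7.1 k L Ω' n _ h'
  obtain ⟨R, S, s1, s2⟩ := h0 L Ω' n _ (u2 d).1 c2 (h9 L Ω' n _ (u2 d).1 c2)
  obtain ⟨D, hD, hC⟩ := c0_of h1 h2 h3 s1
  rw [s2, (u2 d).2] at hC
  refine ⟨L, _, _, D, hs L, hD, ?_⟩
  rw [show P092GV.vanish k G = P092GV.vanish k (P011IT.bc Ω' h) from Ideal.ext fun p =>
    P011IT.mem_vanish.trans ((P011IT.Van_bc h).symm.trans P011IT.mem_vanish.symm), ← u3,
    show P092GV.vanish L (P011IT.bc Ω' h) = van _ from Ideal.ext fun p =>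
      mem_vanish.trans (P092A1.mem_van_pts_iff u1).symm]
  exact h7.2 L n _ d D hC

/-- **the assembly** -/
theorem top (q : Q1) (h1 : EXC) (h2 : HOM) (h3 : PI) (h4 : LOC) (h5 : NRM) (h6 : EXT) (h7 : UPF)
    (h8 : MAXS) (h9 : YNE) (h0 : RK1) (k1 : SPEC) (k2 : FA) (k3 : FB) (k4 : MPT) : QI := by
  intro k Ω _ _ _ _ hk n G hG hS
  have := IsAlgClosure.isAlgClosed k (K := Ω)
  have : Infinite k := hk.elim (fun _ => .of_injective _ Nat.cast_injective)
    fun ⟨F, _, _, _, _⟩ => .of_injective _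
      ((algebraMap (RatFunc F) k).injective.comp (RatFunc.algebraMap_injective F))
  have h := abs_of hG
  obtain ⟨L, _, _, D, l1, hD, hC⟩ := ex_c0 h1 h2 h3 h4 h5 h6 h7 h8 h9 h0 hk h
  have := IsSepClosure.sep_closed k (K := separableClosure k Ω)
  have : Infinite (separableClosure k Ω) := .of_injective _ (algebraMap k _).injective
  obtain ⟨ψ, P, p1, p2⟩ := k2 k (separableClosure k Ω) Ω n G h D hD
    (k1 k (separableClosure k Ω) Ω L l1 n G h D hD hC)
  obtain ⟨φ, f1, f2⟩ := hS _ _ ψ _ p2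
  obtain ⟨⟨φ', f3⟩, f4⟩ := k3 k (separableClosure k Ω) Ω n G h D hD φ P
    (fun g => f1 g ▸ p1 g) f2
  exact k4 k _ Ω n _ G f4 (q k _ hk D hD n _ φ' f3)

end Vale.Agent.P011IZ
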